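import Vale.Agent.P022.H567.Gch

/-!
P022: a continuous character of `G_K` with values in a local field has absolute value one.
-/

open NumberField

noncomputable section

namespace Vale.Agent.P022.H953

open Vale.Agent.P022.C

theorem alg_Qb : Algebra.IsAlgebraic ℚ Qb := AlgebraicClosure.isAlgebraic ℚ

theorem gal_Qb : IsGalois ℚ Qb :=
  have := alg_Qb
  have : IsAlgClosure ℚ Qb := ⟨inferInstance, inferInstance⟩
  IsAlgClosure.isGalois ℚ Qb

/-- the set of automorphisms fixing an element is closed -/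
theorem isClosed_fix (x : Qb) : IsClosed {g : GQ | g x = x} := by
  have := alg_Qb
  have h1 : (MulAction.stabilizer GQ x : Set GQ) = {g : GQ | g x = x} := by
    ext g
    rfl
  rw [← h1]
  exact Subgroup.isClosed_of_isOpen _ (stabilizer_isOpen_of_isIntegral x)

theorem isClosed_GK {K : Type} [Field K] (j : K →+* Qb) : IsClosed (GK j : Set GQ) := by
  have h1 : (GK j : Set GQ) = ⋂ x : K, {g : GQ | g (j x) = j x} := by
    ext g
    simp only [Set.mem_iInter]
    rfl
  rw [h1]
  exact isClosed_iInter fun x => isClosed_fix (j x)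

theorem compact_GK {K : Type} [Field K] (j : K →+* Qb) : CompactSpace (GK j) :=
  have := gal_Qb
  isCompact_iff_compactSpace.mp (isClosed_GK j).isCompact

theorem norm_le_one {G E : Type*} [Group G] [TopologicalSpace G] [CompactSpace G]
    [NontriviallyNormedField E] (χ : G →* Eˣ) (hχ : Continuous χ) (g : G) :
    ‖(χ g : E)‖ ≤ 1 := by
  by_contra hg
  push Not at hg
  have h1 : Continuous fun g : G => ‖(χ g : E)‖ :=
    continuous_norm.comp (Units.continuous_val.comp hχ)
  obtain ⟨C, hC⟩ := (isCompact_univ.image h1).bddAbove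
  obtain ⟨n, hn⟩ := pow_unbounded_of_one_lt C hg
  have h2 : ‖(χ (g ^ n) : E)‖ ≤ C := hC ⟨g ^ n, Set.mem_univ _, rfl⟩
  rw [map_pow, Units.val_pow_eq_pow_val, norm_pow] at h2
  exact absurd h2 (not_le.mpr hn)

theorem norm_eq_one {G E : Type*} [Group G] [TopologicalSpace G] [CompactSpace G]
    [NontriviallyNormedField E] (χ : G →* Eˣ) (hχ : Continuous χ) (g : G) :
    ‖(χ g : E)‖ = 1 := by
  refine le_antisymm (norm_le_one χ hχ g) ?_
  have h1 := norm_le_one χ hχ g⁻¹
  rw [map_inv, Units.val_inv_eq_inv_val, norm_inv] at h1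
  have h2 : 0 < ‖(χ g : E)‖ := norm_pos_iff.mpr (χ g).ne_zero
  exact (inv_le_one₀ h2).mp h1

theorem CPT : CPTStmt := by
  intro K _ _ j E _ χ hχ g
  have := compact_GK j
  exact norm_eq_one χ hχ g

end Vale.Agent.P022.H953
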