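import Vale.Agent.P022.H567.Gch

/-!
P022: the multiplicative function on ideals with given values at the primes.
-/

open NumberField IsDedekindDomain Finset UniqueFactorizationMonoid

noncomputable section

namespace Vale.Agent.P022.H953

open Vale.Agent.P022.C

open scoped Classical in
/-- the value at a prime ideal -/
def val {R : Type} [CommRing R] {E : Type} [Field E] (f : HeightOneSpectrum R → E)
    (I : Ideal R) : E := if h : I.IsPrime ∧ I ≠ ⊥ then f ⟨I, h.1, h.2⟩ else 1

open scoped Classical in
/-- the multiplicative function -/
def psi {R : Type} [CommRing R] [IsDedekindDomain R] {E : Type} [Field E]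
    (f : HeightOneSpectrum R → E) : Ideal R →* E where
  toFun I := if I = 0 then 0 else ((normalizedFactors I).map (val f)).prod
  map_one' := by
    rw [if_neg one_ne_zero, normalizedFactors_one]
    simp
  map_mul' I J := by
    by_cases hI : I = 0
    · simp [hI]
    · by_cases hJ : J = 0
      · simp [hJ]
      · rw [if_neg (mul_ne_zero hI hJ), if_neg hI, if_neg hJ, normalizedFactors_mul hI hJ,
          Multiset.map_add, Multiset.prod_add]

theorem psi_prime {R : Type} [CommRing R] [IsDedekindDomain R] {E : Type} [Field E]
    (f : HeightOneSpectrum R → E) (v : HeightOneSpectrum R) : psi f v.asIdeal = f v := by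
  classical
  have h1 : v.asIdeal ≠ 0 := v.ne_bot
  change (if v.asIdeal = 0 then 0 else ((normalizedFactors v.asIdeal).map (val f)).prod) = f v
  rw [if_neg h1, normalizedFactors_irreducible v.irreducible]
  simp only [normalize_eq, Multiset.map_singleton, Multiset.prod_singleton, val]
  rw [dif_pos ⟨v.isPrime, v.ne_bot⟩]

theorem PSI : PSIStmt := by
  intro K _ _ E _ f hf
  refine ⟨psi f, psi_prime f, fun α hα => ?_⟩
  have h0 : Ideal.span {α} ≠ 0 := by
    rw [Ne, Ideal.zero_eq_bot, Ideal.span_singleton_eq_bot]
    exact hα
  have h1 : psi f (Ideal.span {α}) =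
      ∏ᶠ v : HeightOneSpectrum (𝓞 K), psi f (v.maxPowDividing (Ideal.span {α})) := by
    conv_lhs => rw [← Ideal.finprod_heightOneSpectrum_factorization h0]
    exact MonoidHom.map_finprod (psi f) (Ideal.hasFiniteMulSupport h0)
  rw [h1]
  refine finprod_congr fun v => ?_
  rw [HeightOneSpectrum.maxPowDividing, map_pow, psi_prime, ordv]
  have h2 : v.valuation K (α : K) = WithZero.exp
      (-((Associates.mk v.asIdeal).count (Associates.mk (Ideal.span {α})).factors : ℤ)) := by
    rw [← v.intValuationDef_if_neg hα]
    exact v.valuation_of_algebraMap α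
  rw [h2, WithZero.log_exp, neg_neg, zpow_natCast]

end Vale.Agent.P022.H953
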